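import Vale.Agent.P273.H936.TauB
import Vale.Agent.P273.H604.CutNeck
import Vale.Agent.P273.H26.Ew
import Vale.Agent.P273.H339.UFin

/-!
# P273, crew ASY0: the cut-off form on the necks, without hypotheses

`neckForm : NeckForm (lgU u0) (lgP theOne)`.
-/

noncomputable section

namespace Vale.Agent.P273.H936

open H681 H95 H732 H562 H973 H803

theorem nk6_kp (i : Fin 6) : nk6 i = H738.kp i := by
  revert i; decide

/-- **(P3)** in the form of helper604 -/
theorem tauB : H604.TauB := by
  obtain ⟨C, hC, hT⟩ := tauN_bound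
  refine ⟨C, 4, hC, by norm_num, ?_⟩
  intro R m S p hp j k h i hi
  obtain ⟨t1, t2, t3, t4⟩ := hT R m p hp.2.1 j k h i
    (by rw [← hi]; exact nk6_kp i)
  exact ⟨fun d _ => t1 d, t2, t3, t4⟩

/-- the coefficients of the flat gauge at the theta configurations (908) -/
theorem aId : H26.AId H580.theFlatFam.A := by
  obtain ⟨N₀, h1, h2⟩ := H908.exists_theta
  exact ⟨N₀, h1, fun y α hy ξ hξ u v => ((h2 y α hy).2.2 ξ hξ).1 u v⟩

theorem pk_kp (i : Fin 6) : H97.pk i = H738.kp i := by
  revert i; decide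

/-- the bound of the primitive from a root, for the flat gauge -/
theorem ewB : H604.EwB H580.theFlatFam := by
  obtain ⟨K, N₀, hK, hN, h⟩ := H26.ew_bound aId
  refine ⟨K, N₀, by linarith, hN, fun y α hy ξ hξ i x v h1 h2 _ => ?_⟩
  have h3 := h y α hy ξ hξ i x v h1 h2
  rw [pk_kp] at h3
  exact h3

/-- the flat gauge on the necks is the explicit family (339) -/
theorem uNk : H604.UNk H580.theFlatFam (H132.lgU H517.u0) := by
  obtain ⟨N₀, hN, h⟩ := H339.lgF_flat
  refine ⟨N₀, hN, fun R m S _ p hp j k hj ξ hξ => ?_⟩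
  exact (h R m S p hp ξ hξ j k hj).2.2.symm

/-- **(N1)**: the gauge of one mark on the necks -/
theorem neckForm : NeckForm (H132.lgU H517.u0) (lgP H580.theOne) :=
  H604.neckForm_of uNk ewB tauB

end Vale.Agent.P273.H936

end
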