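import Vale.Agent.P273.H174.Cut2
import Vale.Agent.P273.H803.AsyL

/-!
# P273, crew ASY0, item (P3): the cut-offs at the roots in the log chart of a region

* `hasFDerivAt_posj`: the derivative of `posj` (roots, position of a neck mark) in the log chart;
* `window_dep`: on the support of `chiW` at a root of the neck `k` the mark is in the middle;
* `tauN_bound`: the derivative of `chiW` in the directions of the log chart.
-/

noncomputable section

namespace Vale.Agent.P273.H936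

open Set Filter H681 H95 H732 H562 H973 H803
open H214 (Bs hh chiW Cf)
open H174 (Pair NPt NDir C0 C0_pos)
open scoped Topology ContDiff

/-! ### the roots -/

/-- half of the difference of the roots of the pair `k` -/
def dL (y α : Fin 3 → ℝ) (k : Fin 3) : ℂ :=
  (1 / 16 : ℂ) * Complex.exp ((-(y k : ℂ) + (α k : ℂ) * Complex.I) / 2)

/-- the pair of a root -/
def nk6 : Fin 6 → Fin 3 := ![0, 0, 1, 1, 2, 2]

/-- the other root of the pair -/
def pr6 : Fin 6 → Fin 6 := ![1, 0, 3, 2, 5, 4]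

/-- the sign of a root in its pair -/
def sg6 : Fin 6 → ℂ := ![-1, 1, -1, 1, -1, 1]

theorem nk6_eq (i : Fin 6) (k : Fin 3) : nk6 i = k ↔ (i : ℕ) / 2 = k := by
  revert i k; decide

theorem pr6_ne : ∀ i, pr6 i ≠ i := by decide

theorem nk6_pr6 : ∀ i, nk6 (pr6 i) = nk6 i := by decide

theorem nk6_ne : ∀ i i' : Fin 6, i' ≠ i → i' ≠ pr6 i → nk6 i' ≠ nk6 i := by decide

theorem sg6_pr6 (i : Fin 6) : sg6 (pr6 i) = -sg6 i := by
  fin_cases i <;> simp [sg6, pr6]

theorem sg6_sq (i : Fin 6) : sg6 i ^ 2 = 1 := by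
  fin_cases i <;> simp [sg6]

theorem norm_sg6 (i : Fin 6) : ‖sg6 i‖ = 1 := by
  fin_cases i <;> simp [sg6]

theorem rootsL_apply (y α : Fin 3 → ℝ) (i : Fin 6) :
    rootsL y α i = ctr (nk6 i) + sg6 i * dL y α (nk6 i) := by
  fin_cases i <;> simp [rootsL, H828.th, nk6, sg6, dL, ctr] <;> norm_num <;> ring

theorem norm_dL (y α : Fin 3 → ℝ) (k : Fin 3) :
    ‖dL y α k‖ = 1 / 16 * Real.exp (-(y k) / 2) := by
  unfold dL
  rw [norm_mul, Complex.norm_exp]
  have h1 : ((-(y k : ℂ) + (α k : ℂ) * Complex.I) / 2).re = -(y k) / 2 := by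
    have : (-(y k : ℂ) + (α k : ℂ) * Complex.I) / 2
        = ((-(y k) / 2 : ℝ) : ℂ) + ((α k / 2 : ℝ) : ℂ) * Complex.I := by
      push_cast; ring
    rw [this]
    simp
  rw [h1]
  norm_num

theorem dL_ne (y α : Fin 3 → ℝ) (k : Fin 3) : dL y α k ≠ 0 := by
  rw [← norm_pos_iff, norm_dL]; positivity

theorem exp_neg_two_lt : Real.exp (-2) ≤ 1 / 4 := by
  rw [Real.exp_neg]
  have h1 := Real.add_one_le_exp (2 : ℝ)
  have h2 : (4 : ℝ) ≤ Real.exp 2 := by
    have h3 : Real.exp 2 = Real.exp 1 * Real.exp 1 := by rw [← Real.exp_add]; norm_num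
    have h4 := Real.add_one_le_exp (1 : ℝ)
    rw [h3]; nlinarith
  rw [one_div]
  exact inv_anti₀ (by norm_num) h2

theorem norm_dL_le {y α : Fin 3 → ℝ} {k : Fin 3} (h : 4 ≤ y k) : 64 * ‖dL y α k‖ ≤ 1 := by
  rw [norm_dL]
  have h1 : Real.exp (-(y k) / 2) ≤ Real.exp (-2) := Real.exp_le_exp.2 (by linarith)
  have := exp_neg_two_lt
  linarith

/-- `e^(-y/2) ≤ 1 / y` -/
theorem exp_half_le {t : ℝ} (ht : 0 < t) : Real.exp (-t / 2) ≤ 1 / t := by
  rw [show -t / 2 = -(t / 2) by ring, Real.exp_neg, one_div]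
  refine inv_anti₀ ht ?_
  have h1 := Real.add_one_le_exp (t / 4)
  have h2 : Real.exp (t / 2) = Real.exp (t / 4) * Real.exp (t / 4) := by
    rw [← Real.exp_add]; ring_nf
  rw [h2]
  nlinarith [sq_nonneg (t / 4 - 1)]

theorem norm_ctr_sub (k l : Fin 3) (h : k ≠ l) : 2 ≤ ‖ctr k - ctr l‖ := by
  have h1 : ctr k - ctr l = (((2 * ((k : ℕ) : ℤ) - 2 * ((l : ℕ) : ℤ) : ℤ) : ℝ) : ℂ) := by
    unfold ctr; push_cast; ring
  rw [h1, Complex.norm_real, Real.norm_eq_abs, ← Int.cast_abs]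
  have h2 : (2 : ℤ) ≤ |2 * ((k : ℕ) : ℤ) - 2 * ((l : ℕ) : ℤ)| := by
    clear h1
    revert k l; decide
  exact_mod_cast h2

/-- the pair of a root -/
theorem pair {y α : Fin 3 → ℝ} (hy : ∀ k, 4 ≤ y k) (i : Fin 6) :
    Pair (rootsL y α) i (pr6 i) (ctr (nk6 i)) (sg6 i * dL y α (nk6 i)) 1 := by
  have hd : ∀ k, 64 * ‖dL y α k‖ ≤ 1 := fun k => norm_dL_le (hy k)
  have hfar : ∀ i i' : Fin 6, nk6 i' ≠ nk6 i → 1 ≤ ‖rootsL y α i' - ctr (nk6 i)‖ := by
    intro i i' h
    rw [rootsL_apply]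
    have h1 := norm_ctr_sub _ _ h
    have h2 : ‖ctr (nk6 i') - ctr (nk6 i)‖ ≤
        ‖ctr (nk6 i') + sg6 i' * dL y α (nk6 i') - ctr (nk6 i)‖ + ‖sg6 i' * dL y α (nk6 i')‖ := by
      have : ctr (nk6 i') - ctr (nk6 i) = (ctr (nk6 i') + sg6 i' * dL y α (nk6 i') - ctr (nk6 i)) -
        sg6 i' * dL y α (nk6 i') := by ring
      rw [this]
      exact norm_sub_le _ _
    rw [norm_mul, norm_sg6, one_mul] at h2
    have := hd (nk6 i')
    linarith
  refine ⟨?_, pr6_ne i, rootsL_apply y α i, ?_, ?_, ?_⟩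
  · intro a c hac
    by_contra hne
    by_cases h : c = pr6 a
    · rw [h, rootsL_apply, rootsL_apply, nk6_pr6, sg6_pr6] at hac
      have h1 : sg6 a * dL y α (nk6 a) = 0 := by linear_combination hac / 2
      have h2 : sg6 a ≠ 0 := by
        rw [← norm_pos_iff, norm_sg6]; norm_num
      exact (mul_ne_zero h2 (dL_ne _ _ _)) h1
    · have h1 := nk6_ne a c (fun h => hne h.symm) h
      have h2 := hfar a c h1
      rw [← hac, rootsL_apply, add_sub_cancel_left, norm_mul, norm_sg6, one_mul] at h2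
      have := hd (nk6 a)
      linarith
  · rw [rootsL_apply, nk6_pr6, sg6_pr6]; ring
  · intro i' h1 h2
    exact hfar i i' (nk6_ne i i' h1 h2)
  · rw [norm_mul, norm_sg6, one_mul]
    exact hd _

/-! ### the position of a neck mark in the log chart -/

section Chart

variable (R : H95.Region) (m : ∀ k, Fin (R.n k + 1))

/-- the logarithm of `ε_k`: `-y_k + i α_k` -/
def lE (k : Fin 3) : Co R m →L[ℝ] ℂ := (W R m).lS ((W R m).neck k)

theorem lE_apply (k : Fin 3) (p : Co R m) :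
    lE R m k p = -(p.2.2.1 k : ℂ) + (p.2.2.2.1 k : ℂ) * Complex.I := (W R m).lS_neck p k

/-- the logarithm of `X` -/
abbrev lX {j : L} {k : Fin 3} (h : R.pl j = Sum.inl k) : Co R m →L[ℝ] ℂ :=
  wreg.LX R.Cm R.n m k (rkF R h)

/-- the logarithm of `Y` -/
abbrev lY {j : L} {k : Fin 3} (h : R.pl j = Sum.inl k) : Co R m →L[ℝ] ℂ :=
  wreg.LY R.Cm R.n m k (rkF R h)

theorem lX_add_lY {j : L} {k : Fin 3} (h : R.pl j = Sum.inl k) (p : Co R m) :
    lX R m h p + lY R m h p = lE R m k p := by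
  rw [lE_apply]; exact wreg.LX_add_LY m p k (rkF R h)

/-- `X` of a neck mark -/
def Xn {j : L} {k : Fin 3} (h : R.pl j = Sum.inl k) (p : Co R m) : ℂ :=
  1 / 16 * Complex.exp (lX R m h p)

/-- `Y` of a neck mark -/
def Yn {j : L} {k : Fin 3} (h : R.pl j = Sum.inl k) (p : Co R m) : ℂ :=
  1 / 16 * Complex.exp (lY R m h p)

theorem Xn_mul_Yn {j : L} {k : Fin 3} (h : R.pl j = Sum.inl k) (p : Co R m) :
    Xn R m h p * Yn R m h p = dL p.2.2.1 p.2.2.2.1 k ^ 2 := by
  unfold Xn Yn dL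
  have h1 : Complex.exp (lX R m h p) * Complex.exp (lY R m h p) =
      Complex.exp ((-(p.2.2.1 k : ℂ) + (p.2.2.2.1 k : ℂ) * Complex.I) / 2) ^ 2 := by
    rw [← Complex.exp_add, lX_add_lY, lE_apply, ← Complex.exp_nat_mul]
    congr 1
    push_cast
    ring
  rw [mul_pow, ← h1]
  ring

theorem posj_eq {j : L} {k : Fin 3} (h : R.pl j = Sum.inl k) (p : Co R m) :
    posj R m j p = (rootsL p.2.2.1 p.2.2.2.1, ctr k + (Xn R m h p + Yn R m h p) / 2) := by
  unfold posj posE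
  rw [prj_apply]
  refine Prod.ext rfl ?_
  change R.pos (emb R m p) j = _
  rw [pos_neck R _ h]
  have h1 : R.XX (emb R m p) k (R.rk j) = Xn R m h p := XX_scl_psi R m p k (rkF R h)
  have h2 : R.YY (emb R m p) k (R.rk j) = Yn R m h p := YY_scl_psi R m p k (rkF R h)
  rw [h1, h2]

/-- the derivative of the roots -/
def rootsD (p : Co R m) : Co R m →L[ℝ] (Fin 6 → ℂ) :=
  ContinuousLinearMap.pi fun i =>
    (sg6 i * dL p.2.2.1 p.2.2.2.1 (nk6 i) / 2) • lE R m (nk6 i)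

theorem hasFDerivAt_dL (p : Co R m) (k : Fin 3) :
    HasFDerivAt (fun p : Co R m => dL p.2.2.1 p.2.2.2.1 k)
      ((dL p.2.2.1 p.2.2.2.1 k / 2) • lE R m k) p := by
  have h0 : (fun p : Co R m => dL p.2.2.1 p.2.2.2.1 k) =
      fun p : Co R m => (1 / 16 : ℂ) * Complex.exp ((1 / 2 : ℂ) * lE R m k p) := by
    funext q
    unfold dL
    rw [lE_apply]
    congr 2
    ring
  rw [h0]
  have h1 : HasFDerivAt (fun p : Co R m => (1 / 2 : ℂ) * lE R m k p)
      ((1 / 2 : ℂ) • lE R m k) p := (lE R m k).hasFDerivAt.const_mul _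
  have h2 := h1.cexp.const_mul (1 / 16 : ℂ)
  refine h2.congr_fderiv ?_
  refine ContinuousLinearMap.ext fun v => ?_
  simp only [_root_.smul_apply, smul_eq_mul]
  unfold dL
  rw [lE_apply]
  have : (1 / 2 : ℂ) * (-(p.2.2.1 k : ℂ) + (p.2.2.2.1 k : ℂ) * Complex.I) =
      (-(p.2.2.1 k : ℂ) + (p.2.2.2.1 k : ℂ) * Complex.I) / 2 := by ring
  rw [this]
  ring

theorem hasFDerivAt_rootsL (p : Co R m) :
    HasFDerivAt (fun p : Co R m => rootsL p.2.2.1 p.2.2.2.1) (rootsD R m p) p := by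
  rw [hasFDerivAt_pi']
  intro i
  have h0 : (fun p : Co R m => rootsL p.2.2.1 p.2.2.2.1 i) =
      fun p : Co R m => ctr (nk6 i) + sg6 i * dL p.2.2.1 p.2.2.2.1 (nk6 i) := by
    funext q
    exact rootsL_apply _ _ i
  rw [h0]
  have h1 := ((hasFDerivAt_dL R m p (nk6 i)).const_mul (sg6 i)).const_add (ctr (nk6 i))
  refine h1.congr_fderiv ?_
  refine ContinuousLinearMap.ext fun v => ?_
  simp only [rootsD, _root_.smul_apply, smul_eq_mul, ContinuousLinearMap.comp_apply,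
    ContinuousLinearMap.proj_apply, ContinuousLinearMap.pi_apply]
  ring

/-- the derivative of the position of a neck mark -/
def xD {j : L} {k : Fin 3} (h : R.pl j = Sum.inl k) (p : Co R m) : Co R m →L[ℝ] ℂ :=
  (Xn R m h p / 2) • lX R m h + (Yn R m h p / 2) • lY R m h

/-- **the derivative of (roots, position of a neck mark)** -/
theorem hasFDerivAt_posj {j : L} {k : Fin 3} (h : R.pl j = Sum.inl k) (p : Co R m) :
    HasFDerivAt (posj R m j) ((rootsD R m p).prod (xD R m h p)) p := by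
  have h0 : posj R m j = fun p : Co R m =>
      (rootsL p.2.2.1 p.2.2.2.1, ctr k + (Xn R m h p + Yn R m h p) / 2) := by
    funext q
    exact posj_eq R m h q
  rw [h0]
  refine (hasFDerivAt_rootsL R m p).prodMk ?_
  have h1 : HasFDerivAt (fun p : Co R m => Xn R m h p) ((1 / 16 : ℂ) •
      (Complex.exp (lX R m h p) • lX R m h)) p :=
    ((lX R m h).hasFDerivAt.cexp).const_mul (1 / 16 : ℂ)
  have h2 : HasFDerivAt (fun p : Co R m => Yn R m h p) ((1 / 16 : ℂ) •
      (Complex.exp (lY R m h p) • lY R m h)) p :=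
    ((lY R m h).hasFDerivAt.cexp).const_mul (1 / 16 : ℂ)
  have h3 := ((h1.add h2).const_mul (1 / 2 : ℂ)).const_add (ctr k)
  have h4 : (fun p : Co R m => ctr k + (Xn R m h p + Yn R m h p) / 2) =
      fun p : Co R m => ctr k + 1 / 2 * (Xn R m h p + Yn R m h p) := by
    funext q; ring
  rw [h4]
  refine HasFDerivAt.congr_fderiv h3 ?_
  refine ContinuousLinearMap.ext fun v => ?_
  simp only [xD, Xn, Yn, _root_.smul_apply, smul_eq_mul,
    _root_.add_apply]
  ring

theorem fderiv_posj {j : L} {k : Fin 3} (h : R.pl j = Sum.inl k) (p : Co R m) :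
    fderiv ℝ (posj R m j) p = (rootsD R m p).prod (xD R m h p) :=
  (hasFDerivAt_posj R m h p).fderiv

/-! ### the cut-off at a root -/

/-- the derivative of the cut-off at the root `i`, in the log chart -/
def tauN (i : Fin 6) (j : L) (p : Co R m) : Co R m →L[ℝ] ℝ :=
  (fderiv ℝ (fun q : Bs × ℂ => chiW q.1 i q.2) (posj R m j p)).comp (fderiv ℝ (posj R m j) p)

variable {R m}

theorem npt {j : L} {k : Fin 3} (h : R.pl j = Sum.inl k) (p : Co R m) {i : Fin 6}
    (hi : nk6 i = k) : NPt (ctr (nk6 i)) (sg6 i * dL p.2.2.1 p.2.2.2.1 (nk6 i)) (posj R m j p).2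
      (Xn R m h p) (Yn R m h p) := by
  subst hi
  refine ⟨?_, ?_⟩
  · rw [posj_eq R m h]
  · rw [Xn_mul_Yn, mul_pow, sg6_sq, one_mul]

theorem ndir {j : L} {k : Fin 3} (h : R.pl j = Sum.inl k) (p v : Co R m) {i : Fin 6}
    (hi : nk6 i = k) {Δ : ℝ}
    (hΔ : ∀ l, l ≠ k → ‖dL p.2.2.1 p.2.2.2.1 l‖ * ‖lE R m l v‖ ≤ Δ) :
    NDir (rootsD R m p v) (xD R m h p v) i (pr6 i) (sg6 i * dL p.2.2.1 p.2.2.2.1 (nk6 i))
      (Xn R m h p) (Yn R m h p) (lX R m h v) (lY R m h v) 0 Δ := by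
  subst hi
  refine ⟨?_, ?_, ?_, ?_⟩
  · rw [lX_add_lY]
    simp only [rootsD, ContinuousLinearMap.pi_apply, _root_.smul_apply, smul_eq_mul]
    ring
  · rw [lX_add_lY]
    simp only [rootsD, ContinuousLinearMap.pi_apply, _root_.smul_apply, smul_eq_mul]
    rw [nk6_pr6, sg6_pr6]
    ring
  · simp only [xD, _root_.add_apply, _root_.smul_apply, smul_eq_mul]
    ring
  · intro i' h1 h2
    have h3 := hΔ _ (nk6_ne i i' h1 h2)
    simp only [rootsD, ContinuousLinearMap.pi_apply, _root_.smul_apply, smul_eq_mul,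
      sub_zero]
    rw [norm_mul, norm_div, norm_mul, norm_sg6, one_mul]
    have h4 : ‖(2 : ℂ)‖ = 2 := by simp
    rw [h4]
    have h5 : 0 ≤ ‖dL p.2.2.1 p.2.2.2.1 (nk6 i')‖ * ‖lE R m (nk6 i') v‖ := by positivity
    calc ‖dL p.2.2.1 p.2.2.2.1 (nk6 i')‖ / 2 * ‖lE R m (nk6 i') v‖
        = (‖dL p.2.2.1 p.2.2.2.1 (nk6 i')‖ * ‖lE R m (nk6 i') v‖) / 2 := by ring
      _ ≤ Δ := by linarith

/-- the bound of `tauN` in a general direction -/
theorem abs_tauN_le {j : L} {k : Fin 3} (h : R.pl j = Sum.inl k) {p : Co R m}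
    (hy : ∀ k, 4 ≤ p.2.2.1 k) (v : Co R m) {i : Fin 6} (hi : nk6 i = k) {Δ : ℝ}
    (hΔ : ∀ l, l ≠ k → ‖dL p.2.2.1 p.2.2.2.1 l‖ * ‖lE R m l v‖ ≤ Δ) :
    |tauN R m i j p v| ≤ 20 * C0 * (‖(lX R m h v - lY R m h v) / 2‖ +
      8 * ‖dL p.2.2.1 p.2.2.2.1 k‖ ^ 2 * (‖(lX R m h v + lY R m h v) / 2‖ + Δ)) := by
  have hP := pair (α := p.2.2.2.1) hy i
  have hN := npt h p hi
  have hV := ndir h p v hi hΔ
  have h1 := H174.dchiW_neck hP hN hV
  have h2 : tauN R m i j p v = fderiv ℝ (fun q : Bs × ℂ => chiW q.1 i q.2)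
      (rootsL p.2.2.1 p.2.2.2.1, (posj R m j p).2) (rootsD R m p v, xD R m h p v) := by
    unfold tauN
    rw [fderiv_posj R m h]
    rfl
  rw [h2]
  refine h1.trans (le_of_eq ?_)
  rw [norm_mul, norm_sg6, one_mul, div_one, div_one, hi]

/-- **the window**: on the support of the cut-off at a root the mark is in the middle -/
theorem window_dep {j : L} {k : Fin 3} (h : R.pl j = Sum.inl k) {p : Co R m}
    (hy : ∀ k, 4 ≤ p.2.2.1 k) {i : Fin 6} (hi : nk6 i = k)
    (hw : 32 * ‖(posj R m j p).2 - rootsL p.2.2.1 p.2.2.2.1 i‖ ^ 2 ≤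
      hh (rootsL p.2.2.1 p.2.2.2.1) i) :
    |2 * wreg.dep m p k (rkF R h) - p.2.2.1 k| ≤ 4 := by
  have hP := pair (α := p.2.2.2.1) hy i
  have hN := npt h p hi
  obtain ⟨h1, h2, -, -⟩ := H174.window hP hN hw
  have hX : ‖Xn R m h p‖ = 1 / 16 * Real.exp (-wreg.dep m p k (rkF R h)) := by
    unfold Xn
    rw [norm_mul, Complex.norm_exp]
    have h3 : (lX R m h p).re = -wreg.dep m p k (rkF R h) := by
      change (wreg.LX R.Cm R.n m k (rkF R h) p).re = _
      rw [wreg.LX_eq]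
      simp
    rw [h3]
    norm_num
  rw [norm_mul, norm_sg6, one_mul, hi, norm_dL, hX] at h1 h2
  set a := wreg.dep m p k (rkF R h) with ha
  set y := p.2.2.1 k with hyd
  have h4 : Real.exp (-y / 2) ≤ 4 * Real.exp (-a) := by linarith
  have h5 : Real.exp (-a) ≤ 4 * Real.exp (-y / 2) := by linarith
  have he : (4 : ℝ) ≤ Real.exp 2 := by
    have h3 : Real.exp 2 = Real.exp 1 * Real.exp 1 := by rw [← Real.exp_add]; norm_num
    have h4 := Real.add_one_le_exp (1 : ℝ)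
    rw [h3]; nlinarith
  have h6 : Real.exp (-y / 2) ≤ Real.exp (2 + -a) := by
    rw [Real.exp_add]
    exact h4.trans (mul_le_mul_of_nonneg_right he (Real.exp_pos _).le)
  have h7 : Real.exp (-a) ≤ Real.exp (2 + -y / 2) := by
    rw [Real.exp_add]
    exact h5.trans (mul_le_mul_of_nonneg_right he (Real.exp_pos _).le)
  rw [Real.exp_le_exp] at h6 h7
  rw [abs_le]
  constructor <;> linarith

theorem tauN_zero {j : L} {p : Co R m}
    (hy : ∀ k, 4 ≤ p.2.2.1 k) {i : Fin 6}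
    (hw : ¬ 32 * ‖(posj R m j p).2 - rootsL p.2.2.1 p.2.2.2.1 i‖ ^ 2 ≤
      hh (rootsL p.2.2.1 p.2.2.2.1) i) : tauN R m i j p = 0 := by
  have hP := pair (α := p.2.2.2.1) hy i
  have h1 : fderiv ℝ (fun q : Bs × ℂ => chiW q.1 i q.2) (posj R m j p) = 0 := by
    have h2 := H604.fderiv_chiW_eq_zero hP.hb (j := i) (x := (posj R m j p).2)
      (Or.inr (not_le.1 hw).le)
    exact h2
  unfold tauN
  rw [h1, ContinuousLinearMap.zero_comp]

/-! ### values of the logarithms on the directions -/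

theorem lX_off {j : L} {k : Fin 3} (h : R.pl j = Sum.inl k) {f : (W R m).Fr}
    (hf : (W R m).nk f.1 ≠ k) : lX R m h ((W R m).vec (.u f)) = 0 ∧
      lX R m h ((W R m).vec (.ph f)) = 0 ∧ lY R m h ((W R m).vec (.u f)) = 0 ∧
      lY R m h ((W R m).vec (.ph f)) = 0 := by
  have h1 : ∀ S : Finset (Σ k, Fin (R.n k + 1)), S ⊆ (W R m).neck k →
      ((f.1 : Σ k, Fin (R.n k + 1)) ∈ S ↔ (W R m).last ((W R m).nk f.1) ∈ S) := by
    intro S hS
    constructor
    · intro h2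
      exact absurd ((W R m).mem_neck.1 (hS h2)) hf
    · intro h2
      have h3 := (W R m).mem_neck.1 (hS h2)
      rw [(W R m).nk_last] at h3
      exact absurd h3 hf
  have h2 := (W R m).lS_vec_rigid (C := R.Cm) _ f (h1 _ (wreg.bef_subset m k (rkF R h)))
  have h3 := (W R m).lS_vec_rigid (C := R.Cm) _ f (h1 _ (wreg.aft_subset m k (rkF R h)))
  exact ⟨h2.1, h2.2, h3.1, h3.2⟩

theorem lE_vec_u (l : Fin 3) (f : (W R m).Fr) : lE R m l ((W R m).vec (.u f)) = 0 := by
  rw [lE_apply]; simp [Reg.vec]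

theorem lE_vec_ph (l : Fin 3) (f : (W R m).Fr) : lE R m l ((W R m).vec (.ph f)) = 0 := by
  rw [lE_apply]; simp [Reg.vec]

theorem lXY_al {j : L} {k : Fin 3} (h : R.pl j = Sum.inl k) {l : Fin 3} (hl : l ≠ k) :
    lX R m h ((W R m).vec (.al l)) = 0 ∧ lY R m h ((W R m).vec (.al l)) = 0 := by
  have h1 : ∀ S : Finset (Σ k, Fin (R.n k + 1)), S ⊆ (W R m).neck k →
      (W R m).last l ∉ S := by
    intro S hS h2
    have h3 := (W R m).mem_neck.1 (hS h2)
    rw [(W R m).nk_last] at h3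
    exact hl h3
  constructor
  · change (W R m).lS _ _ = 0
    rw [(W R m).lS_vec_al, if_neg (h1 _ (wreg.bef_subset m k (rkF R h))), zero_mul]
  · change (W R m).lS _ _ = 0
    rw [(W R m).lS_vec_al, if_neg (h1 _ (wreg.aft_subset m k (rkF R h))), zero_mul]

theorem lXY_eul {j : L} {k : Fin 3} (h : R.pl j = Sum.inl k) {l : Fin 3} (hl : l ≠ k)
    (p : Co R m) (hy : p.2.2.1 l ≠ 0) :
    lX R m h ((W R m).eul p l) = 0 ∧ lY R m h ((W R m).eul p l) = 0 := by
  have h1 : ∀ S : Finset (Σ k, Fin (R.n k + 1)), S ⊆ (W R m).neck k →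
      Disjoint S ((W R m).neck l) := by
    intro S hS
    rw [Finset.disjoint_left]
    intro g hg hg'
    exact hl ((W R m).mem_neck.1 hg' ▸ (W R m).mem_neck.1 (hS hg))
  constructor
  · exact (W R m).lS_eul_of_disjoint (h1 _ (wreg.bef_subset m k (rkF R h))) p hy
  · exact (W R m).lS_eul_of_disjoint (h1 _ (wreg.aft_subset m k (rkF R h))) p hy

theorem lE_eul_self (l : Fin 3) (p : Co R m) (hy : p.2.2.1 l ≠ 0) :
    lE R m l ((W R m).eul p l) = -1 := by
  rw [lE, (W R m).lS_eul (Finset.Subset.refl _) p hy]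
  have h1 : ∑ g ∈ (W R m).neck l, (W R m).ug p g = p.2.2.1 l := by
    rw [Reg.neck, Finset.sum_filter]
    exact (W R m).sum_ug p l
  rw [h1, div_self hy]
  simp

theorem lE_eul_ne {l l' : Fin 3} (hl : l' ≠ l) (p : Co R m) (hy : p.2.2.1 l ≠ 0) :
    lE R m l' ((W R m).eul p l) = 0 := by
  refine (W R m).lS_eul_of_disjoint ?_ p hy
  rw [Finset.disjoint_left]
  intro g hg hg'
  exact hl (((W R m).mem_neck.1 hg).symm.trans ((W R m).mem_neck.1 hg'))

theorem lX_sub_lY_eul {j : L} {k : Fin 3} (h : R.pl j = Sum.inl k) (p : Co R m)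
    (hy : p.2.2.1 k ≠ 0) : lX R m h ((W R m).eul p k) - lY R m h ((W R m).eul p k) =
      (((p.2.2.1 k - 2 * wreg.dep m p k (rkF R h)) / p.2.2.1 k : ℝ) : ℂ) := by
  have h1 : lX R m h ((W R m).eul p k) =
      -((wreg.dep m p k (rkF R h) / p.2.2.1 k : ℝ) : ℂ) := by
    change (W R m).lS _ _ = _
    rw [(W R m).lS_eul (wreg.bef_subset m k (rkF R h)) p hy]
    congr 3
    rw [wreg.bef, Finset.sum_map, Finset.sum_filter]
    rfl
  have h2 : lX R m h ((W R m).eul p k) + lY R m h ((W R m).eul p k) = -1 := by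
    rw [lX_add_lY, lE_eul_self k p hy]
  have h3 : lY R m h ((W R m).eul p k) = -1 - lX R m h ((W R m).eul p k) := by
    rw [← h2]; ring
  rw [h3, h1]
  push_cast
  have h4 : (p.2.2.1 k : ℂ) ≠ 0 := by exact_mod_cast hy
  field_simp
  ring

theorem lE_vec_al {l l' : Fin 3} (hl : l' ≠ l) : lE R m l' ((W R m).vec (.al l)) = 0 := by
  rw [lE_apply]
  simp [Reg.vec, Pi.single_eq_of_ne hl]

/-- **(P3)** the derivative of the cut-off at a root of the neck of the mark -/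
theorem tauN_bound : ∃ C : ℝ, 0 ≤ C ∧ ∀ (R : H95.Region) (m : ∀ k, Fin (R.n k + 1))
    (p : Co R m), (∀ k, 4 ≤ p.2.2.1 k) → ∀ (j : L) (k : Fin 3), R.pl j = Sum.inl k →
    ∀ i : Fin 6, nk6 i = k →
      (∀ d : (W R m).Dir R.Cm, |tauN R m i j p ((W R m).vec d)| ≤ C) ∧
      (∀ f : (W R m).Fr, (W R m).nk f.1 ≠ k →
        tauN R m i j p ((W R m).vec (.u f)) = 0 ∧ tauN R m i j p ((W R m).vec (.ph f)) = 0) ∧
      (∀ l, l ≠ k → |tauN R m i j p ((W R m).vec (.al l))| ≤ C / p.2.2.1 l) ∧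
      ∀ l, |tauN R m i j p ((W R m).eul p l)| ≤ C / p.2.2.1 l := by
  have hC := C0_pos
  refine ⟨60 * C0, by positivity, ?_⟩
  intro R m p hy j k h i hi
  have hy0 : ∀ l, 0 < p.2.2.1 l := fun l => by have := hy l; linarith
  have hd : ∀ l, 64 * ‖dL p.2.2.1 p.2.2.2.1 l‖ ≤ 1 := fun l => norm_dL_le (hy l)
  have hd0 : ∀ l, 0 ≤ ‖dL p.2.2.1 p.2.2.2.1 l‖ := fun l => norm_nonneg _
  have hd2 : 8 * ‖dL p.2.2.1 p.2.2.2.1 k‖ ^ 2 ≤ 1 / 2 := by
    have h1 := hd k
    have h2 := hd0 k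
    nlinarith
  have hdy : ∀ l, ‖dL p.2.2.1 p.2.2.2.1 l‖ ≤ 1 / p.2.2.1 l := fun l => by
    rw [norm_dL]
    have h1 := exp_half_le (hy0 l)
    have h2 := Real.exp_pos (-(p.2.2.1 l) / 2)
    linarith
  refine ⟨?_, ?_, ?_, ?_⟩
  · intro d
    have hX : ‖lX R m h ((W R m).vec d)‖ ≤ 1 := (W R m).norm_lS_vec_le _ d
    have hY : ‖lY R m h ((W R m).vec d)‖ ≤ 1 := (W R m).norm_lS_vec_le _ d
    have hE : ∀ l, ‖lE R m l ((W R m).vec d)‖ ≤ 1 := fun l => (W R m).norm_lS_vec_le _ d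
    have h1 := abs_tauN_le h hy ((W R m).vec d) hi (Δ := 1) (fun l _ => by
      have := hd l
      have h2 := hd0 l
      calc ‖dL p.2.2.1 p.2.2.2.1 l‖ * ‖lE R m l ((W R m).vec d)‖ ≤ 1 * 1 :=
            mul_le_mul (by linarith) (hE l) (norm_nonneg _) (by norm_num)
        _ = 1 := by norm_num)
    refine h1.trans ?_
    have h2 : ‖(lX R m h ((W R m).vec d) - lY R m h ((W R m).vec d)) / 2‖ ≤ 1 := by
      rw [norm_div]
      have h3 := norm_sub_le (lX R m h ((W R m).vec d)) (lY R m h ((W R m).vec d))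
      have h4 : ‖(2 : ℂ)‖ = 2 := by simp
      rw [h4]
      linarith
    have h3 : ‖(lX R m h ((W R m).vec d) + lY R m h ((W R m).vec d)) / 2‖ ≤ 1 := by
      rw [norm_div]
      have h3 := norm_add_le (lX R m h ((W R m).vec d)) (lY R m h ((W R m).vec d))
      have h4 : ‖(2 : ℂ)‖ = 2 := by simp
      rw [h4]
      linarith
    have h4 : 8 * ‖dL p.2.2.1 p.2.2.2.1 k‖ ^ 2 *
        (‖(lX R m h ((W R m).vec d) + lY R m h ((W R m).vec d)) / 2‖ + 1) ≤ 1 / 2 * 2 :=
      mul_le_mul hd2 (by linarith) (by positivity) (by norm_num)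
    calc _ ≤ 20 * C0 * (1 + 1 / 2 * 2) :=
          mul_le_mul_of_nonneg_left (add_le_add h2 h4) (by positivity)
      _ ≤ _ := by linarith
  · intro f hf
    obtain ⟨a1, a2, a3, a4⟩ := lX_off h hf
    have key : ∀ v : Co R m, lX R m h v = 0 → lY R m h v = 0 → (∀ l, lE R m l v = 0) →
        tauN R m i j p v = 0 := by
      intro v b1 b2 b3
      have h1 := abs_tauN_le h hy v hi (Δ := 0) (fun l _ => by
        rw [b3 l, norm_zero, mul_zero])
      rw [b1, b2] at h1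
      have h2 : |tauN R m i j p v| ≤ 0 := by
        refine h1.trans (le_of_eq ?_)
        simp
      exact abs_eq_zero.1 (le_antisymm h2 (abs_nonneg _))
    exact ⟨key _ a1 a3 fun l => lE_vec_u l f, key _ a2 a4 fun l => lE_vec_ph l f⟩
  · intro l hl
    obtain ⟨a1, a2⟩ := lXY_al (m := m) h hl
    have h1 := abs_tauN_le h hy ((W R m).vec (.al l)) hi (Δ := 1 / p.2.2.1 l) (fun l' _ => by
      by_cases hll : l' = l
      · subst hll
        have h2 : ‖lE R m l' ((W R m).vec (.al l'))‖ ≤ 1 := (W R m).norm_lS_vec_le _ _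
        calc ‖dL p.2.2.1 p.2.2.2.1 l'‖ * ‖lE R m l' ((W R m).vec (.al l'))‖
            ≤ 1 / p.2.2.1 l' * 1 := mul_le_mul (hdy l') h2 (norm_nonneg _) (by
              have := hy0 l'; positivity)
          _ = _ := mul_one _
      · rw [lE_vec_al hll, norm_zero, mul_zero]
        have := hy0 l
        positivity)
    rw [a1, a2] at h1
    refine h1.trans ?_
    have hyl := hy0 l
    have h3 : 8 * ‖dL p.2.2.1 p.2.2.2.1 k‖ ^ 2 * (1 / p.2.2.1 l) ≤ 1 / 2 * (1 / p.2.2.1 l) :=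
      mul_le_mul_of_nonneg_right hd2 (by positivity)
    have h4 : ‖((0 : ℂ) - 0) / 2‖ = 0 := by simp
    have h5 : ‖((0 : ℂ) + 0) / 2‖ = 0 := by simp
    rw [h4, h5, zero_add, zero_add]
    calc _ ≤ 20 * C0 * (1 / 2 * (1 / p.2.2.1 l)) := mul_le_mul_of_nonneg_left h3 (by positivity)
      _ = 10 * C0 / p.2.2.1 l := by ring
      _ ≤ _ := by
        refine div_le_div_of_nonneg_right ?_ hyl.le
        linarith
  · intro l
    have hyl := hy0 l
    by_cases hlk : l = k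
    · subst hlk
      by_cases hw : 32 * ‖(posj R m j p).2 - rootsL p.2.2.1 p.2.2.2.1 i‖ ^ 2 ≤
        hh (rootsL p.2.2.1 p.2.2.2.1) i
      · have hwin := window_dep h hy hi hw
        have h1 := abs_tauN_le h hy ((W R m).eul p l) hi (Δ := 0) (fun l' hl' => by
          rw [lE_eul_ne hl' p hyl.ne', norm_zero, mul_zero])
        refine h1.trans ?_
        have h2 : ‖(lX R m h ((W R m).eul p l) - lY R m h ((W R m).eul p l)) / 2‖ ≤
            2 * (1 / p.2.2.1 l) := by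
          rw [lX_sub_lY_eul h p hyl.ne', norm_div, Complex.norm_real, Real.norm_eq_abs, abs_div,
            abs_of_pos hyl]
          have h4 : ‖(2 : ℂ)‖ = 2 := by simp
          rw [h4]
          have h5 : |p.2.2.1 l - 2 * wreg.dep m p l (rkF R h)| ≤ 4 := by
            rw [abs_sub_comm]; exact hwin
          calc |p.2.2.1 l - 2 * wreg.dep m p l (rkF R h)| / p.2.2.1 l / 2 ≤
                4 / p.2.2.1 l / 2 := by
                have := div_le_div_of_nonneg_right h5 hyl.le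
                linarith
            _ = _ := by ring
        have h3 : lX R m h ((W R m).eul p l) + lY R m h ((W R m).eul p l) = -1 := by
          rw [lX_add_lY, lE_eul_self l p hyl.ne']
        have h4 : ‖(lX R m h ((W R m).eul p l) + lY R m h ((W R m).eul p l)) / 2‖ ≤ 1 := by
          rw [h3]
          norm_num
        have h5 : 8 * ‖dL p.2.2.1 p.2.2.2.1 l‖ ^ 2 ≤ 1 / p.2.2.1 l := by
          have h6 := hd l
          have h7 := hd0 l
          have h8 := hdy l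
          nlinarith
        have h6 : 8 * ‖dL p.2.2.1 p.2.2.2.1 l‖ ^ 2 *
            (‖(lX R m h ((W R m).eul p l) + lY R m h ((W R m).eul p l)) / 2‖ + 0) ≤
              1 / p.2.2.1 l * 1 :=
          mul_le_mul h5 (by linarith) (by positivity) (by positivity)
        calc _ ≤ 20 * C0 * (2 * (1 / p.2.2.1 l) + 1 / p.2.2.1 l * 1) :=
              mul_le_mul_of_nonneg_left (add_le_add h2 h6) (by positivity)
          _ = 60 * C0 / p.2.2.1 l := by ring
      · rw [tauN_zero hy hw]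
        simp only [_root_.zero_apply, abs_zero]
        positivity
    · obtain ⟨a1, a2⟩ := lXY_eul (m := m) h hlk p hyl.ne'
      have h1 := abs_tauN_le h hy ((W R m).eul p l) hi (Δ := 1 / p.2.2.1 l) (fun l' _ => by
        by_cases hll : l' = l
        · subst hll
          rw [lE_eul_self l' p hyl.ne', norm_neg, norm_one, mul_one]
          exact hdy l'
        · rw [lE_eul_ne hll p hyl.ne', norm_zero, mul_zero]
          positivity)
      rw [a1, a2] at h1
      refine h1.trans ?_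
      have h3 : 8 * ‖dL p.2.2.1 p.2.2.2.1 k‖ ^ 2 * (1 / p.2.2.1 l) ≤ 1 / 2 * (1 / p.2.2.1 l) :=
        mul_le_mul_of_nonneg_right hd2 (by positivity)
      have h4 : ‖((0 : ℂ) - 0) / 2‖ = 0 := by simp
      have h5 : ‖((0 : ℂ) + 0) / 2‖ = 0 := by simp
      rw [h4, h5, zero_add, zero_add]
      calc _ ≤ 20 * C0 * (1 / 2 * (1 / p.2.2.1 l)) :=
            mul_le_mul_of_nonneg_left h3 (by positivity)
        _ = 10 * C0 / p.2.2.1 l := by ring
        _ ≤ _ := by
          refine div_le_div_of_nonneg_right ?_ hyl.le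
          linarith

end Chart

end Vale.Agent.P273.H936

end
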